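import Vale.Agent.P073.H309.All

/-!
# P073: the Ball-Evans approximation problem in dimension three, for all exponents `1 ≤ p < ∞`
-/

namespace Vale.Agent.Results.P073.BallEvansAll

open Vale.Agent.P073.St

/-- Let `1 ≤ p < ∞` and let `f : Ω → Λ` be a `W^{1,p}` homeomorphism between bounded domains of
`ℝ³`. Then `f` is diffeomorphically approximable in `W^{1,p}`. -/
theorem result (p : ℝ) (hp : 1 ≤ p) (Ω Λ : Set V) (hΩ : IsBoundedDomain Ω)
    (hΛ : IsBoundedDomain Λ) (f : V → V) (hf : IsHomeo Ω Λ f) (F : V → Mat)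
    (hF : IsSobolev p Ω f F) : DiffeoApproximable p Ω Λ f F :=
  Vale.Agent.P073.H309.full_all hp Ω Λ f F hΩ hΛ hf hF

end Vale.Agent.Results.P073.BallEvansAll
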